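import Vale.Agent.P154.D2.K0.Main

namespace Vale.Agent.P154.D2

open PolyR Cert

/-- Coefficients of the potentials. -/
noncomputable def cc1 : ℕ → ℝ
  | 0 => (5183 / 5000 : ℝ)
  | 1 => (17289 / 10000 : ℝ)
  | _ => 0

/-- Coefficients of the potentials. -/
noncomputable def cc2 : ℕ → ℝ
  | 0 => (-29413 / 10000 : ℝ)
  | 1 => (-2079 / 250 : ℝ)
  | _ => 0

/-- Coefficients of the potentials. -/
noncomputable def cc4 : ℕ → ℝ
  | 0 => (39577 / 10000 : ℝ)
  | 1 => (31629 / 2000 : ℝ)
  | _ => 0

/-- Coefficients of the potentials. -/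
noncomputable def zz : ℕ → ℝ
  | 0 => (177 / 250 : ℝ)
  | _ => 0

theorem H : ChainHyp 2 (442 / 625 : ℝ) cc1 cc2 cc4 zz (597 / 500000 : ℝ) where
  hd := by norm_num
  hl0 := by norm_num
  hl1 := by norm_num
  hld := by norm_num
  hτ' := by norm_num
  hc01 := by simp only [cc1]; norm_num
  hc04 := by simp only [cc4]; norm_num
  hc0 := by simp only [cc1, cc2, cc4]; norm_num
  hcd1 := by simp only [cc1, show 2 - 1 = 1 from rfl]; norm_num
  hcd4 := by simp only [cc4, show 2 - 1 = 1 from rfl]; norm_num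
  hcd := by simp only [cc1, cc2, cc4, show 2 - 1 = 1 from rfl]; norm_num
  hζ0 := by
    intro k hk
    have hk' : k < 1 := by omega
    interval_cases k <;> simp only [zz] <;> norm_num
  hζ1 := by
    intro k hk
    have hk' : k < 1 := by omega
    interval_cases k <;> simp only [zz] <;> norm_num
  hstep := by
    intro k hk x y hx hy hx1 hy1
    have hk' : k < 1 := by omega
    interval_cases k
    · exact K0.step x y hx hy hx1 hy1
  hT := by
    intro a b
    have h := Vale.Agent.P154.quad_nonneg (α := (32806165402703 / 27465820312500000 : ℝ)) (β := (309094713031 / 1716613769531250000 : ℝ)) (γ := (29657275837263581 / 1072883605957031250000 : ℝ)) (a := a) (b := b) (by norm_num) (by norm_num)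
    simp only [show 2 - 1 = 1 from rfl, cc1, cc2, cc4, Pq]
    linarith

/-- Nonreconstruction for `2` children. -/
theorem nonrecon (lam : ℝ) (h0 : 0 ≤ lam) (hdl : ((2 : ℕ) : ℝ) * lam ^ 2 ≤ 1) :
    Filter.Tendsto (reconError 3 2 lam) Filter.atTop (nhds 0) :=
  nonrecon_of_hyp H lam h0 hdl

end Vale.Agent.P154.D2
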